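import Vale.Agent.P354CB.Defs2

/-!
A removable singularity for solutions of a total differential equation in dimension three.
-/

open scoped ContDiff
open Set Filter Topology Metric

namespace Vale.Agent.P354CB27

open Vale.Agent.P354I (X)
open Vale.Agent.P354CB

variable {E : Type} [NormedAddCommGroup E] [NormedSpace ℝ E]

/-- The mean value inequality on a segment of the ball which misses the centre. -/
theorem seg_le {f : X → E} {f' : X → X →L[ℝ] E} {y : X} {r C : ℝ}
    (h : ∀ w ∈ ball y r, w ≠ y → HasFDerivAt f (f' w) w ∧ ‖f' w‖ ≤ C) {a b : X}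
    (ha : a ∈ ball y r) (hb : b ∈ ball y r) (hy : y ∉ segment ℝ a b) :
    ‖f b - f a‖ ≤ C * ‖b - a‖ := by
  have hs : ∀ w ∈ segment ℝ a b, w ∈ ball y r ∧ w ≠ y := fun w hw =>
    ⟨(convex_ball y r).segment_subset ha hb hw, fun e => hy (e ▸ hw)⟩
  exact (convex_segment a b).norm_image_sub_le_of_norm_hasFDerivWithin_le
    (fun w hw => (h w (hs w hw).1 (hs w hw).2).1.hasFDerivWithinAt)
    (fun w hw => (h w (hs w hw).1 (hs w hw).2).2) (left_mem_segment ℝ a b)
    (right_mem_segment ℝ a b)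

/-- A third point off both lines through the centre. -/
theorem third {y a b : X} {ε : ℝ} (hε : 0 < ε) (ha : a ≠ y) (hb : b ≠ y) :
    ∃ z ∈ ball y ε, y ∉ segment ℝ a z ∧ y ∉ segment ℝ b z := by
  have hlt : Submodule.span ℝ ({a - y, b - y} : Set X) ≠ ⊤ := by
    intro h
    have h1 : Module.finrank ℝ (Submodule.span ℝ (({a - y, b - y} : Finset X) : Set X)) ≤ 2 :=
      (finrank_span_finset_le_card _).trans Finset.card_le_two
    rw [Finset.coe_pair, h, finrank_top, finrank_euclideanSpace_fin] at h1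
    omega
  obtain ⟨v, hv⟩ : ∃ v, v ∉ Submodule.span ℝ ({a - y, b - y} : Set X) := by
    by_contra hc
    exact hlt (Submodule.eq_top_iff'.2 fun v => by_contra fun h => hc ⟨v, h⟩)
  have hc : 0 < ε / (‖v‖ + 1) := by positivity
  have key : ∀ u ≠ y, u - y ∈ Submodule.span ℝ ({a - y, b - y} : Set X) →
      y ∉ segment ℝ u (y + (ε / (‖v‖ + 1)) • v) := by
    rintro u hu hm ⟨s, t, -, -, hst, e⟩
    have e2 : s • (u - y) + (t * (ε / (‖v‖ + 1))) • v = 0 := by
      have : s • (u - y) + (t * (ε / (‖v‖ + 1))) • v =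
          s • u + t • (y + (ε / (‖v‖ + 1)) • v) - (s + t) • y := by module
      rw [this, e, hst, one_smul, sub_self]
    by_cases ht : t = 0
    · have hs : s = 1 := by linarith
      rw [ht, hs, zero_mul, zero_smul, add_zero, one_smul, sub_eq_zero] at e2
      exact hu e2
    · have hne : t * (ε / (‖v‖ + 1)) ≠ 0 := mul_ne_zero ht hc.ne'
      refine hv ((Submodule.smul_mem_iff _ hne).1 ?_)
      rw [eq_neg_of_add_eq_zero_right e2]
      exact neg_mem (Submodule.smul_mem _ _ hm)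
  refine ⟨y + (ε / (‖v‖ + 1)) • v, ?_, key a ha (Submodule.subset_span (by simp)),
    key b hb (Submodule.subset_span (by simp))⟩
  rw [mem_ball, dist_eq_norm, add_sub_cancel_left, norm_smul, Real.norm_of_nonneg hc.le,
    div_mul_eq_mul_div, div_lt_iff₀ (by positivity)]
  nlinarith

/-- The limit at the centre exists if the derivative is bounded. -/
theorem exists_lim [CompleteSpace E] {f : X → E} {f' : X → X →L[ℝ] E} {y : X} {r C : ℝ}
    (hr : 0 < r) (hC : 0 < C)
    (h : ∀ w ∈ ball y r, w ≠ y → HasFDerivAt f (f' w) w ∧ ‖f' w‖ ≤ C) :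
    ∃ l, Tendsto f (𝓝[≠] y) (𝓝 l) := by
  refine CompleteSpace.complete (f := map f (𝓝[≠] y)) (Metric.cauchy_iff.2 ⟨inferInstance, ?_⟩)
  intro ε hε
  obtain ⟨δ, hδ, h1, h2⟩ : ∃ δ > 0, δ ≤ r ∧ C * (4 * δ) < ε := by
    refine ⟨min r (ε / (8 * C)), by positivity, min_le_left _ _, ?_⟩
    have : min r (ε / (8 * C)) ≤ ε / (8 * C) := min_le_right _ _
    have h3 : C * (4 * (ε / (8 * C))) = ε / 2 := by field_simp; ring
    nlinarith
  refine ⟨f '' (ball y δ ∩ {y}ᶜ), image_mem_map (inter_mem (mem_nhdsWithin_of_mem_nhds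
    (ball_mem_nhds y hδ)) self_mem_nhdsWithin), ?_⟩
  rintro _ ⟨a, ⟨ha, ha'⟩, rfl⟩ _ ⟨b, ⟨hb, hb'⟩, rfl⟩
  obtain ⟨z, hz, hza, hzb⟩ := third hδ ha' hb'
  have e1 := seg_le h (ball_subset_ball h1 ha) (ball_subset_ball h1 hz) hza
  have e2 := seg_le h (ball_subset_ball h1 hb) (ball_subset_ball h1 hz) hzb
  have d : ∀ u ∈ ball y δ, ‖z - u‖ ≤ 2 * δ := fun u hu => by
    rw [← dist_eq_norm]
    have := dist_triangle_right z u y
    rw [mem_ball] at hz hu
    linarith
  have := dist_triangle_left (f a) (f b) (f z)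
  rw [dist_eq_norm (f z), dist_eq_norm (f z)] at this
  have d1 := mul_le_mul_of_nonneg_left (d a ha) hC.le
  have d2 := mul_le_mul_of_nonneg_left (d b hb) hC.le
  linarith

/-- The mean value inequality on a ray from the centre. -/
theorem ray_le {f : X → E} {f' : X → X →L[ℝ] E} {y : X} {r C : ℝ} (hC : 0 ≤ C)
    (h : ∀ w ∈ ball y r, w ≠ y → HasFDerivAt f (f' w) w ∧ ‖f' w‖ ≤ C) (hf : ContinuousAt f y)
    {x : X} (hx : x ∈ ball y r) : ‖f x - f y‖ ≤ C * ‖x - y‖ := by
  by_cases e : x = y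
  · simp [e]
  have hy : y ∈ ball y r := mem_ball_self (pos_of_mem_ball hx)
  have t1 : Tendsto (fun t : ℝ => y + t • (x - y)) (𝓝[>] 0) (𝓝 y) := by
    have : Continuous fun t : ℝ => y + t • (x - y) := by fun_prop
    have h2 := this.tendsto 0
    rw [zero_smul, add_zero] at h2
    exact h2.mono_left nhdsWithin_le_nhds
  have t2 : Tendsto (fun t : ℝ => ‖f x - f (y + t • (x - y))‖) (𝓝[>] 0) (𝓝 ‖f x - f y‖) :=
    (tendsto_const_nhds.sub (hf.tendsto.comp t1)).norm
  refine le_of_tendsto t2 ?_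
  filter_upwards [Ioo_mem_nhdsGT (zero_lt_one' ℝ)] with t ht
  have hm : y + t • (x - y) ∈ ball y r :=
    (convex_ball y r).add_smul_sub_mem hy hx ⟨ht.1.le, ht.2.le⟩
  have hn : y ∉ segment ℝ (y + t • (x - y)) x := by
    rintro ⟨a, b, ha, hb, hab, e2⟩
    have e3 : (a * t + b) • (x - y) = 0 := by
      have : (a * t + b) • (x - y) = a • (y + t • (x - y)) + b • x - (a + b) • y := by module
      rw [this, e2, hab, one_smul, sub_self]
    rcases smul_eq_zero.1 e3 with h4 | h4
    · have : 0 ≤ a * t := mul_nonneg ha ht.1.le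
      have hb0 : b = 0 := by linarith
      have ha1 : a = 1 := by linarith
      rw [hb0, ha1] at h4
      linarith [ht.1]
    · exact e (sub_eq_zero.1 h4)
  refine (seg_le h hm hx hn).trans (mul_le_mul_of_nonneg_left ?_ hC)
  have : x - (y + t • (x - y)) = (1 - t) • (x - y) := by module
  rw [this, norm_smul, Real.norm_of_nonneg (by linarith [ht.2])]
  nlinarith [norm_nonneg (x - y), ht.1]

/-- The derivative at the centre. -/
theorem deriv_at {f : X → E} {f' : X → X →L[ℝ] E} {y : X} (hf : ContinuousAt f y)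
    (hc : ContinuousAt f' y) (h : ∀ᶠ w in 𝓝[≠] y, HasFDerivAt f (f' w) w) :
    HasFDerivAt f (f' y) y := by
  rw [hasFDerivAt_iff_isLittleO, Asymptotics.isLittleO_iff]
  intro ε hε
  have h2 : ∀ᶠ w in 𝓝 y, ‖f' w - f' y‖ ≤ ε := by
    filter_upwards [hc.tendsto.eventually (closedBall_mem_nhds (f' y) hε)] with w hw
    rwa [dist_eq_norm] at hw
  obtain ⟨r, hr, h3⟩ := Metric.eventually_nhds_iff_ball.1 ((eventually_nhdsWithin_iff.1 h).and h2)
  filter_upwards [ball_mem_nhds y hr] with x hx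
  have := ray_le (f := fun w => f w - f' y w) (f' := fun w => f' w - f' y) hε.le
    (fun w hw hne => ⟨((h3 w hw).1 hne).sub (f' y).hasFDerivAt, (h3 w hw).2⟩)
    (hf.sub (f' y).continuous.continuousAt) hx
  refine le_of_eq_of_le (congrArg _ ?_) this
  rw [map_sub]
  abel

theorem kr : KR := by
  intro E _ _ _ y J Ξ K hK hΞ hJ
  obtain ⟨C, hC0, hC⟩ : ∃ C > 0, ∀ᶠ x in 𝓝 y, ∀ k ∈ K, ‖Ξ (x, k)‖ ≤ C := by
    obtain ⟨C, hC⟩ := hK.exists_bound_of_continuousOn (f := fun k => Ξ (y, k)) fun k hk =>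
      ((hΞ k hk).continuousAt.comp (f := fun k => (y, k)) (by fun_prop)).continuousWithinAt
    refine ⟨|C| + 1, by positivity, hK.eventually_forall_of_forall_eventually
      (P := fun x k => ‖Ξ (x, k)‖ ≤ |C| + 1) fun k hk => ?_⟩
    have h1 : ‖Ξ (y, k)‖ < |C| + 1 := by linarith [hC k hk, le_abs_self C]
    exact ((hΞ k hk).continuousAt.norm.eventually_lt_const h1).mono fun z hz => hz.le
  obtain ⟨r, hr, h3⟩ := Metric.eventually_nhds_iff_ball.1 ((eventually_nhdsWithin_iff.1 hJ).and hC)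
  obtain ⟨l, hl⟩ := exists_lim (f := J) (f' := fun x => Ξ (x, J x)) hr hC0 fun w hw hne =>
    ⟨((h3 w hw).1 hne).2, (h3 w hw).2 _ ((h3 w hw).1 hne).1⟩
  have hlK : l ∈ K := hK.isClosed.mem_of_tendsto hl (hJ.mono fun x hx => hx.1)
  classical
  have hne : ∀ x ≠ y, Function.update J y l x = J x := fun x hx => Function.update_of_ne hx _ _
  have hy : Function.update J y l y = l := Function.update_self ..
  have hc : ContinuousAt (Function.update J y l) y := continuousAt_update_same.2 hl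
  generalize Function.update J y l = J' at hne hy hc
  have hΞ' : ContDiffAt ℝ ∞ Ξ (y, J' y) := hy ▸ hΞ l hlK
  have hd : ∀ᶠ w in 𝓝[≠] y, HasFDerivAt J' (Ξ (w, J' w)) w := by
    filter_upwards [hJ, self_mem_nhdsWithin] with w hw hw'
    rw [hne w hw']
    refine hw.2.congr_of_eventuallyEq ?_
    filter_upwards [isOpen_compl_singleton.mem_nhds hw'] with u hu using hne u hu
  have hd0 : HasFDerivAt J' (Ξ (y, J' y)) y :=
    deriv_at (f' := fun w => Ξ (w, J' w)) hc
      (hΞ'.continuousAt.comp (f := fun w => (w, J' w)) (continuousAt_id.prodMk hc)) hd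
  have hall : ∀ᶠ w in 𝓝 y, HasFDerivAt J' (Ξ (w, J' w)) w := by
    filter_upwards [eventually_nhdsWithin_iff.1 hd] with w hw
    by_cases e : w = y
    · rw [e]
      exact hd0
    · exact hw e
  refine ⟨J', contDiffAt_infty.2 fun n => ?_, hy ▸ hlK, hne⟩
  induction n with
  | zero =>
    exact contDiffAt_zero.2 ⟨_, hall, fun w hw => hw.continuousAt.continuousWithinAt⟩
  | succ n ih =>
    refine contDiffAt_succ_iff_hasFDerivAt.2 ⟨fun w => Ξ (w, J' w), ⟨_, hall, fun w hw => hw⟩, ?_⟩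
    exact ContDiffAt.comp (f := fun w => (w, J' w)) y (hΞ'.of_le (by exact_mod_cast le_top))
      (contDiffAt_id.prodMk ih)

end Vale.Agent.P354CB27
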